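import Mathlib

/-! # P352 HM, block A6 (contour shift of a Gaussian times a bounded function) -/

set_option linter.all false

noncomputable section

open MeasureTheory Filter Topology

namespace Vale.Agent.P352.HM

namespace A6aux

theorem mem_cl {z : ℂ} (h1 : -(1 / 2) ≤ z.im) (h2 : z.im ≤ 0) :
    z ∈ closure {z : ℂ | -(1 / 2) < z.im ∧ z.im < 0} := by
  have e : {z : ℂ | -(1 / 2) < z.im ∧ z.im < 0} = Complex.im ⁻¹' Set.Ioo (-(1 / 2)) 0 := rfl
  rw [e, Complex.closure_preimage_im, closure_Ioo (by norm_num)]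
  exact ⟨h1, h2⟩

theorem gauss_norm (m : ℝ) (hm : 0 < m) (a : ℂ) (x y : ℝ) (h1 : -(1 / 2) ≤ y) (h2 : y ≤ 0) :
    ‖Complex.exp (-(m : ℂ) * ((x : ℂ) + y * Complex.I + a) ^ 2)‖ ≤
      Real.exp (m * (1 / 2 + |a.im|) ^ 2) * Real.exp (-m * (x + a.re) ^ 2) := by
  rw [Complex.norm_exp, ← Real.exp_add, Real.exp_le_exp]
  have h3 : (-(m : ℂ) * ((x : ℂ) + y * Complex.I + a) ^ 2).re =
      -m * ((x + a.re) ^ 2 - (y + a.im) ^ 2) := by
    simp [pow_two, Complex.mul_re]
  rw [h3]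
  have h4 : |y + a.im| ≤ 1 / 2 + |a.im| := by
    refine (abs_add_le _ _).trans ?_
    rw [abs_of_nonpos h2]
    linarith
  have h5 : (y + a.im) ^ 2 ≤ (1 / 2 + |a.im|) ^ 2 := by
    rw [← sq_abs (y + a.im)]
    exact pow_le_pow_left₀ (abs_nonneg _) h4 2
  nlinarith

theorem gauss_int (m : ℝ) (hm : 0 < m) (c : ℝ) :
    Integrable fun x : ℝ => Real.exp (-m * (x + c) ^ 2) :=
  (integrable_exp_neg_mul_sq hm).comp_add_right c

theorem gauss_lim (m : ℝ) (hm : 0 < m) (c : ℝ) :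
    Tendsto (fun x : ℝ => Real.exp (-m * (x + c) ^ 2)) atTop (𝓝 0) := by
  have h1 : Tendsto (fun x : ℝ => (x + c) ^ 2) atTop atTop :=
    (tendsto_pow_atTop two_ne_zero).comp (tendsto_atTop_add_const_right _ c tendsto_id)
  exact Real.tendsto_exp_atBot.comp (h1.const_mul_atTop_of_neg (by linarith))

end A6aux

open A6aux in
theorem a6_core : ∀ (F : ℂ → ℂ) (m : ℝ) (a : ℂ), 0 < m → DiffContOnCl ℂ F {z : ℂ | -(1 / 2) < z.im ∧ z.im < 0} →
  (∃ C, ∀ z : ℂ, -(1 / 2) ≤ z.im → z.im ≤ 0 → ‖F z‖ ≤ C) →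
  ∫ τ : ℝ, Complex.exp (-(m : ℂ) * ((τ : ℂ) + a) ^ 2) * F τ =
    ∫ τ : ℝ, Complex.exp (-(m : ℂ) * ((τ : ℂ) - Complex.I / 2 + a) ^ 2) * F (τ - Complex.I / 2)
  := by
  rintro F m a hm hF ⟨C, hC⟩
  have hC0 : 0 ≤ C := (norm_nonneg _).trans (hC 0 (by simp) (by simp))
  set K : ℝ := C * Real.exp (m * (1 / 2 + |a.im|) ^ 2) with hK
  have hK0 : 0 ≤ K := by positivity
  let G : ℂ → ℂ := fun z => Complex.exp (-(m : ℂ) * (z + a) ^ 2) * F z
  have hGb : ∀ x y : ℝ, -(1 / 2) ≤ y → y ≤ 0 →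
      ‖G ((x : ℂ) + y * Complex.I)‖ ≤ K * Real.exp (-m * (x + a.re) ^ 2) := by
    intro x y h1 h2
    simp only [G]
    rw [norm_mul]
    calc _ ≤ (Real.exp (m * (1 / 2 + |a.im|) ^ 2) * Real.exp (-m * (x + a.re) ^ 2)) * C := by
          refine mul_le_mul (gauss_norm m hm a x y h1 h2) (hC _ (by simpa using h1)
            (by simpa using h2)) (norm_nonneg _) (by positivity)
      _ = _ := by rw [hK]; ring
  have hexp : Differentiable ℂ fun z : ℂ => Complex.exp (-(m : ℂ) * (z + a) ^ 2) := by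
    fun_prop
  have hGc : ContinuousOn G {z : ℂ | -(1 / 2) ≤ z.im ∧ z.im ≤ 0} := by
    refine hexp.continuous.continuousOn.mul (hF.continuousOn.mono ?_)
    rintro z ⟨h1, h2⟩
    exact mem_cl h1 h2
  have hGd : DifferentiableOn ℂ G {z : ℂ | -(1 / 2) < z.im ∧ z.im < 0} := hexp.differentiableOn.mul hF.differentiableOn
  -- continuity on horizontal lines
  have hline : ∀ y : ℝ, -(1 / 2) ≤ y → y ≤ 0 → Continuous fun x : ℝ => G ((x : ℂ) + y * Complex.I) := by
    intro y h1 h2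
    refine hGc.comp_continuous (by fun_prop) fun x => ?_
    constructor <;> simp <;> linarith
  have hint : ∀ y : ℝ, -(1 / 2) ≤ y → y ≤ 0 →
      Integrable fun x : ℝ => G ((x : ℂ) + y * Complex.I) := by
    intro y h1 h2
    refine ((gauss_int m hm a.re).const_mul K).mono' (hline y h1 h2).aestronglyMeasurable ?_
    exact Eventually.of_forall fun x => hGb x y h1 h2
  -- the rectangle
  have hrect : ∀ R : ℝ, 0 ≤ R →
      (∫ x in (-R)..R, G ((x : ℂ) + ((-(1 / 2) : ℝ) : ℂ) * Complex.I)) -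
        (∫ x in (-R)..R, G ((x : ℂ) + ((0 : ℝ) : ℂ) * Complex.I)) =
      Complex.I * (∫ y in (-(1 / 2) : ℝ)..0, G (((-R : ℝ) : ℂ) + y * Complex.I)) -
        Complex.I * (∫ y in (-(1 / 2) : ℝ)..0, G ((R : ℂ) + y * Complex.I)) := by
    intro R hR
    have hz : (⟨-R, -(1 / 2)⟩ : ℂ).re = -R := rfl
    have h := Complex.integral_boundary_rect_eq_zero_of_continuousOn_of_differentiableOn G
      (⟨-R, -(1 / 2)⟩ : ℂ) (⟨R, 0⟩ : ℂ) (hGc.mono ?_) (hGd.mono ?_)
    · simp only [smul_eq_mul] at h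
      linear_combination h
    · rintro z ⟨-, hz2⟩
      simp only [Set.mem_preimage] at hz2
      rw [Set.uIcc_of_le (by norm_num)] at hz2
      exact hz2
    · rintro z ⟨-, hz2⟩
      simp only [Set.mem_preimage] at hz2
      rw [min_eq_left (by norm_num), max_eq_right (by norm_num)] at hz2
      exact hz2
  have hvert : ∀ x : ℝ, ‖∫ y in (-(1 / 2) : ℝ)..0, G ((x : ℂ) + y * Complex.I)‖ ≤
      K * Real.exp (-m * (x + a.re) ^ 2) * (1 / 2) := by
    intro x
    have := intervalIntegral.norm_integral_le_of_norm_le_const (a := (-(1 / 2) : ℝ)) (b := 0)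
      (C := K * Real.exp (-m * (x + a.re) ^ 2)) (f := fun y : ℝ => G ((x : ℂ) + y * Complex.I))
      (fun y hy => by
        rw [Set.uIoc_of_le (by norm_num)] at hy
        exact hGb x y hy.1.le hy.2)
    simpa using this
  have hv1 : Tendsto (fun R : ℝ => ∫ y in (-(1 / 2) : ℝ)..0, G ((R : ℂ) + y * Complex.I)) atTop
      (𝓝 0) := by
    refine squeeze_zero_norm (fun R => hvert R) ?_
    have h1 := ((gauss_lim m hm a.re).const_mul K).mul_const (1 / 2)
    rwa [mul_zero, zero_mul] at h1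
  have hv2 : Tendsto (fun R : ℝ => ∫ y in (-(1 / 2) : ℝ)..0, G (((-R : ℝ) : ℂ) + y * Complex.I))
      atTop (𝓝 0) := by
    refine squeeze_zero_norm (fun R => hvert (-R)) ?_
    have h1 : Tendsto (fun R : ℝ => Real.exp (-m * (-R + a.re) ^ 2)) atTop (𝓝 0) := by
      refine (gauss_lim m hm (-a.re)).congr fun R => ?_
      congr 2
      ring
    have h2 := (h1.const_mul K).mul_const (1 / 2)
    rwa [mul_zero, zero_mul] at h2
  have hr : Tendsto (fun R : ℝ =>
      (∫ x in (-R)..R, G ((x : ℂ) + ((-(1 / 2) : ℝ) : ℂ) * Complex.I)) -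
        (∫ x in (-R)..R, G ((x : ℂ) + ((0 : ℝ) : ℂ) * Complex.I))) atTop (𝓝 0) := by
    have h1 := (hv2.const_mul Complex.I).sub (hv1.const_mul Complex.I)
    simp only [mul_zero, sub_zero] at h1
    refine h1.congr' ?_
    filter_upwards [eventually_ge_atTop 0] with R hR
    exact (hrect R hR).symm
  have hl := (intervalIntegral_tendsto_integral (hint (-(1 / 2)) le_rfl (by norm_num))
    tendsto_neg_atTop_atBot tendsto_id).sub (intervalIntegral_tendsto_integral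
      (hint 0 (by norm_num) le_rfl) tendsto_neg_atTop_atBot tendsto_id)
  have := tendsto_nhds_unique hl hr
  have h3 := (sub_eq_zero.1 this).symm
  have e1 : ∀ τ : ℝ, (τ : ℂ) + ((0 : ℝ) : ℂ) * Complex.I = τ := by
    intro τ; simp
  have e2 : ∀ τ : ℝ, (τ : ℂ) + ((-(1 / 2) : ℝ) : ℂ) * Complex.I = τ - Complex.I / 2 := by
    intro τ
    push_cast
    ring
  simp only [e1, e2] at h3
  exact h3

end Vale.Agent.P352.HM
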